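import Mathlib.AlgebraicGeometry.Modules.Sheaf
import Mathlib.AlgebraicGeometry.Morphisms.Smooth
import Mathlib.Algebra.Category.ModuleCat.Presheaf.Sheafification
import Mathlib.Algebra.Category.ModuleCat.Differentials.Presheaf
import Mathlib.Algebra.Category.ModuleCat.ExteriorPower
import Mathlib.Analysis.Complex.Basic

/-!
# The canonical sheaf
-/

open CategoryTheory Opposite AlgebraicGeometry

namespace Vale.Agent.P297M

noncomputable section

section Wedge

variable {A B : Type} [CommRing A] [CommRing B] {φ : A →+* B} {M : ModuleCat.{0} A}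
  {N : ModuleCat.{0} B} (g : M ⟶ (ModuleCat.restrictScalars φ).obj N) (n : ℕ)

/-- `(v_1, …, v_n) ↦ g v_1 ∧ … ∧ g v_n`, for a map `g` which is linear over `φ`. -/
def wedgeFun (v : Fin n → M) : (ModuleCat.restrictScalars φ).obj (N.exteriorPower n) :=
  ModuleCat.exteriorPower.mk (M := N) fun j => g (v j)

theorem wedgeFun_update [DecidableEq (Fin n)] (v : Fin n → M) (i : Fin n) (x : M) :
    wedgeFun g n (Function.update v i x) =
      exteriorPower.ιMulti B n (M := N) (Function.update (fun j => g (v j)) i (g x)) :=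
  congrArg (exteriorPower.ιMulti B n (M := N))
    (funext fun j => Function.apply_update (fun _ y => (g y : N)) v i x j)

theorem wedgeFun_add [DecidableEq (Fin n)] (v : Fin n → M) (i : Fin n) (x y : M) :
    wedgeFun g n (Function.update v i (x + y)) =
      wedgeFun g n (Function.update v i x) + wedgeFun g n (Function.update v i y) := by
  rw [wedgeFun_update, wedgeFun_update, wedgeFun_update, map_add]
  exact (exteriorPower.ιMulti B n (M := N)).map_update_add _ i _ _

theorem wedgeFun_smul [DecidableEq (Fin n)] (v : Fin n → M) (i : Fin n) (c : A) (x : M) :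
    wedgeFun g n (Function.update v i (c • x)) = c • wedgeFun g n (Function.update v i x) := by
  rw [wedgeFun_update, wedgeFun_update, map_smul]
  exact (exteriorPower.ιMulti B n (M := N)).map_update_smul _ i (φ c) _

theorem wedgeFun_zero (v : Fin n → M) (i j : Fin n) (h : v i = v j) (hij : i ≠ j) :
    wedgeFun g n v = 0 :=
  (exteriorPower.ιMulti B n (M := N)).map_eq_zero_of_eq _ (congrArg g h) hij

/-- The map induced by `g` on the `n`-th exterior powers. -/
def wedgeMap : M.exteriorPower n ⟶ (ModuleCat.restrictScalars φ).obj (N.exteriorPower n) :=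
  ModuleCat.exteriorPower.desc
    ⟨⟨wedgeFun g n, wedgeFun_add g n, wedgeFun_smul g n⟩, wedgeFun_zero g n⟩

theorem wedgeMap_mk (v : Fin n → M) :
    wedgeMap g n (ModuleCat.exteriorPower.mk v) = wedgeFun g n v :=
  ModuleCat.exteriorPower.desc_mk _ _

theorem mk_congr {v w : Fin n → M} (h : v = w) :
    (ModuleCat.exteriorPower.mk v : M.exteriorPower n) = ModuleCat.exteriorPower.mk w :=
  congrArg _ h

end Wedge

section Pre

variable {C : Type} [SmallCategory C]

/-- A presheaf of commutative rings, as a presheaf of rings. -/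
def rg (R : Cᵒᵖ ⥤ CommRingCat.{0}) : Cᵒᵖ ⥤ RingCat.{0} := R ⋙ forget₂ CommRingCat RingCat

section Law

variable {T : Cᵒᵖ ⥤ RingCat.{0}} (M : ∀ U, ModuleCat.{0} (T.obj U))
  (r : ∀ {U V : Cᵒᵖ} (i : U ⟶ V), M U ⟶ (ModuleCat.restrictScalars (T.map i).hom).obj (M V))

theorem hom_id (U : Cᵒᵖ) : (T.map (𝟙 U)).hom = RingHom.id (T.obj U) :=
  congrArg RingCat.Hom.hom (T.map_id U)

theorem hom_comp {U V W : Cᵒᵖ} (i : U ⟶ V) (k : V ⟶ W) :
    (T.map (i ≫ k)).hom = (T.map k).hom.comp (T.map i).hom :=
  congrArg RingCat.Hom.hom (T.map_comp i k)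

/-- The restriction along the identity is the identity. -/
def IdLaw : Prop := ∀ U, r (𝟙 U) =
  (ModuleCat.restrictScalarsId' (T.map (𝟙 U)).hom (hom_id U)).inv.app (M U)

/-- The restriction maps are compatible with the composition. -/
def CompLaw : Prop := ∀ {U V W : Cᵒᵖ} (i : U ⟶ V) (k : V ⟶ W), r (i ≫ k) =
  r i ≫ (ModuleCat.restrictScalars (T.map i).hom).map (r k) ≫
    (ModuleCat.restrictScalarsComp' (T.map i).hom (T.map k).hom (T.map (i ≫ k)).hom
      (hom_comp i k)).inv.app (M W)

end Law

variable {R : Cᵒᵖ ⥤ CommRingCat.{0}} (n : ℕ) (P : PresheafOfModules.{0} (rg R))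

/-- `⋀^n P(U)`. -/
def wedgeObj (U : Cᵒᵖ) : ModuleCat.{0} ((rg R).obj U) :=
  ModuleCat.exteriorPower (R := R.obj U) (P.obj U) n

/-- The restriction map `⋀^n P(U) → ⋀^n P(V)`. -/
def wedgeRes {U V : Cᵒᵖ} (i : U ⟶ V) : wedgeObj n P U ⟶
    (ModuleCat.restrictScalars ((rg R).map i).hom).obj (wedgeObj n P V) :=
  wedgeMap (A := R.obj U) (B := R.obj V) (φ := (R.map i).hom) (P.map i) n

theorem wedgeRes_id : IdLaw (wedgeObj n P) (wedgeRes n P) := by
  intro U
  refine ModuleCat.exteriorPower.hom_ext (R := R.obj U) (ModuleCat.AlternatingMap.ext fun v =>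
    (wedgeMap_mk (A := R.obj U) (B := R.obj U) (P.map (𝟙 U)) n v).trans ?_)
  have h : (fun j => P.map (𝟙 U) (v j)) = v := funext fun j => by rw [P.map_id]; rfl
  exact mk_congr (A := R.obj U) (M := P.obj U) n h

theorem wedgeRes_comp : CompLaw (wedgeObj n P) (wedgeRes n P) := by
  intro U V W i k
  refine ModuleCat.exteriorPower.hom_ext (R := R.obj U) (ModuleCat.AlternatingMap.ext fun v =>
    (wedgeMap_mk (A := R.obj U) (B := R.obj W) (P.map (i ≫ k)) n v).trans ?_)
  have h : (fun j => P.map (i ≫ k) (v j)) = fun j => P.map k (P.map i (v j)) :=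
    funext fun j => by rw [P.map_comp]; rfl
  exact ((mk_congr (A := R.obj W) (M := P.obj W) n h).trans
    (wedgeMap_mk (A := R.obj V) (B := R.obj W) (P.map k) n fun j => P.map i (v j)).symm).trans
      (congrArg (wedgeMap (A := R.obj V) (B := R.obj W) (P.map k) n)
        (wedgeMap_mk (A := R.obj U) (B := R.obj V) (P.map i) n v).symm)

/-- The presheaf `U ↦ ⋀^n P(U)`. -/
def preWedge : PresheafOfModules.{0} (rg R) where
  obj := wedgeObj n P
  map := wedgeRes n P
  map_id := wedgeRes_id n P
  map_comp := wedgeRes_comp n P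

end Pre

/-- The sheaf of modules associated with a presheaf of modules. -/
def sheafify {T : TopCat.{0}} (O : Sheaf (Opens.grothendieckTopology T) RingCat.{0})
    (P : PresheafOfModules.{0} O.obj) : SheafOfModules.{0} O :=
  (PresheafOfModules.sheafification (𝟙 O.obj)).obj P

variable {X : Scheme.{0}}

/-- The constant functions on an open set of a scheme over `ℂ`. -/
def cst (f : X ⟶ Spec (CommRingCat.of ℂ)) (U : X.Opens) : CommRingCat.of ℂ ⟶ Γ(X, U) :=
  (Scheme.ΓSpecIso (CommRingCat.of ℂ)).inv ≫ f.appTop ≫ X.presheaf.map (homOfLE le_top).op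

theorem cst_map (f : X ⟶ Spec (CommRingCat.of ℂ)) {U V : X.Opensᵒᵖ} (i : U ⟶ V) :
    cst f U.unop ≫ X.presheaf.map i = cst f V.unop := by
  rw [cst, cst, Category.assoc, Category.assoc, ← X.presheaf.map_comp]
  rfl

/-- The constant functions, as a map from the constant presheaf `ℂ` to `O_X`. -/
def const (f : X ⟶ Spec (CommRingCat.of ℂ)) :
    (Functor.const X.Opensᵒᵖ).obj (CommRingCat.of ℂ) ⟶ X.presheaf where
  app U := cst f U.unop
  naturality _ _ i := (Category.id_comp _).trans (cst_map f i).symm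

/-- The cotangent sheaf: the sheaf associated with `U ↦ Ω_{O(U)/ℂ}` (Kähler differentials). -/
def cotangent (f : X ⟶ Spec (CommRingCat.of ℂ)) : X.Modules :=
  sheafify X.ringCatSheaf
    (PresheafOfModules.DifferentialsConstruction.relativeDifferentials' (const f))

/-- The canonical sheaf `K_X = ⋀^n Ω_X` of a scheme of dimension `n` over `ℂ`. -/
def canonical (f : X ⟶ Spec (CommRingCat.of ℂ)) (n : ℕ) : X.Modules :=
  sheafify X.ringCatSheaf (preWedge (R := X.presheaf) n (cotangent f).val)

end

end Vale.Agent.P297M
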