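import Vale.Agent.P297M75.Glue
import Vale.Agent.P297L1.Rat
import Vale.Agent.P297L93.Mor
import Vale.Agent.P297Y.Final

/-!
# The conjecture of Bloch, in the language of schemes
-/

set_option linter.all false

open CategoryTheory AlgebraicGeometry

namespace Vale.Agent.P297M

open Vale.Agent.P009.AV

theorem main (S : Scheme.{0}) (f : S ⟶ Spec (CommRingCat.of ℂ)) [SmoothOfRelativeDimension 2 f]
    [ConnectedSpace S] (hS : IsProjective f) :
    Nonempty (ClosedPt S) ∧ (∀ C : Curve S, ∃ _ : IsLocallyNoetherian C.Nor, FiniteDiv C.Nor) ∧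
    (pg f = 0 → ∀ x₀ : ClosedPt S,
      (∃ (ι : Type) (_ : Fintype ι) (A : AbVar ℂ ι) (a : ClosedPt S → A.G), IsAlb f x₀ A a) ∧
      ∀ (ι : Type) [Fintype ι] (A : AbVar ℂ ι) (a : ClosedPt S → A.G),
        IsAlb f x₀ A a → AlbIso (Q := CH0 S) cl a) :=
  main_of (fun f _ z => P297L1.rat f z) (fun f _ C => P297L1.fin f C)
    (fun X _ _ A a => (P297G93.mor_iff X A a).symm) P297Y.blochFull S f hS

end Vale.Agent.P297M
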