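import Vale.Agent.P297M75.Defs
import Vale.Agent.P297L41.Can
import Vale.Agent.P297L93.IntG
import Vale.Agent.P297L93.AmpG

/-!
# The literal form of the conjecture of Bloch follows from the form with Weil divisors
-/

set_option linter.all false

open CategoryTheory AlgebraicGeometry

namespace Vale.Agent.P297M

open Vale.Agent.P009.AV Vale.Agent.P299

attribute [local instance] MvPolynomial.gradedAlgebra

/-- Normalizations and places. -/
def RAT : Prop := ∀ {S : Scheme.{0}} (f : S ⟶ Spec (CommRingCat.of ℂ)) [IsProper f]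
  (z : ClosedPt S →₀ ℤ), IsPrincipal z ↔ P297.IsPrincipalCycle f z

/-- The divisors are finite. -/
def FIN : Prop := ∀ {S : Scheme.{0}} (f : S ⟶ Spec (CommRingCat.of ℂ)) [IsProper f]
  (C : Curve S), ∃ _ : IsLocallyNoetherian C.Nor, FiniteDiv C.Nor

/-- Morphisms of schemes and rational functions. -/
def MOR : Prop := ∀ (X : S.PVar) {ι : Type} [Fintype ι] (A : AbVar ℂ ι) (a : ClosedPt X.X → A.G),
  Mor X.str A a ↔ P297Y.Mor X A a

theorem can_eq {X : Scheme.{0}} (f : X ⟶ Spec (CommRingCat.of ℂ)) (n : ℕ) :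
    canonical f n = P271L.canonical f n := rfl

theorem IsProjective.proper {S : Scheme.{0}} {f : S ⟶ Spec (CommRingCat.of ℂ)}
    (h : IsProjective f) : IsProper f := by
  obtain ⟨N, i, hi, rfl⟩ := h
  have h1 : IsProper (str (Fin (N + 1))) := P297G93.isProper_proj _
  infer_instance

theorem subsingleton_of_pg {S : Scheme.{0}} {f : S ⟶ Spec (CommRingCat.of ℂ)} (h : pg f = 0) :
    Subsingleton Γ(canonical f 2, ⊤) := by
  let _ := Module.compHom Γ(canonical f 2, ⊤) (cst f ⊤).hom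
  exact rank_zero_iff.1 h

theorem isAlb_iff (hM : MOR) (X : S.PVar) (x₀ : ClosedPt X.X) {ι : Type} [Fintype ι]
    (A : AbVar ℂ ι) (a : ClosedPt X.X → A.G) :
    IsAlb X.str x₀ A a ↔ P297Y.IsAlb X x₀ A a :=
  and_congr (hM X A a) (and_congr_right fun _ => forall_congr' fun τ => forall_congr' fun _ =>
    forall_congr' fun B => forall_congr' fun b => imp_congr (hM X B b) Iff.rfl)

theorem albIso_of (hR : RAT) (X : S.PVar) {ι : Type} [Fintype ι] (A : AbVar ℂ ι)
    (a : ClosedPt X.X → A.G) (h : P297Y.AlbIso X A a) : AlbIso (Q := CH0 X.X) cl a := by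
  have hp : IsProper (X := X.X) (Y := Spec (CommRingCat.of ℂ)) X.str := X.proper
  have e : Rat X.X = P297.Rat X.str :=
    congrArg AddSubgroup.closure (Set.ext fun z => hR (S := X.X) X.str z)
  have key : ∀ H H' : AddSubgroup (ClosedPt X.X →₀ ℤ), H = H' →
      AlbIso (Q := (ClosedPt X.X →₀ ℤ) ⧸ H') (fun x => QuotientAddGroup.mk (Finsupp.single x 1)) a →
      AlbIso (Q := (ClosedPt X.X →₀ ℤ) ⧸ H) (fun x => QuotientAddGroup.mk (Finsupp.single x 1)) a := by
    rintro H _ rfl h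
    exact h
  exact key _ _ e h

theorem main_of (hR : RAT) (hF : FIN) (hM : MOR) (hB : P297Y.BlochFull) (S : Scheme.{0})
    (f : S ⟶ Spec (CommRingCat.of ℂ)) [hs : SmoothOfRelativeDimension 2 f] [ConnectedSpace S]
    (hS : IsProjective f) :
    Nonempty (ClosedPt S) ∧ (∀ C : Curve S, ∃ _ : IsLocallyNoetherian C.Nor, FiniteDiv C.Nor) ∧
    (pg f = 0 → ∀ x₀ : ClosedPt S,
      (∃ (ι : Type) (_ : Fintype ι) (A : AbVar ℂ ι) (a : ClosedPt S → A.G), IsAlb f x₀ A a) ∧
      ∀ (ι : Type) [Fintype ι] (A : AbVar ℂ ι) (a : ClosedPt S → A.G),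
        IsAlb f x₀ A a → AlbIso (Q := CH0 S) cl a) := by
  have h1 : Smooth f := SmoothOfRelativeDimension.smooth 2 f
  have h2 : IsIntegral S := P297G93.isIntegral_of_smooth f
  have h3 : IsProper f := hS.proper
  refine ⟨?_, hF f, fun hg x₀ => ?_⟩
  · have : CompactSpace S := QuasiCompact.compactSpace_of_compactSpace f
    obtain ⟨x, -, hx⟩ := isClosed_univ.exists_closed_singleton (X := S) Set.univ_nonempty
    exact ⟨⟨x, hx⟩⟩
  let X : P299.S.PVar := @P299.S.PVar.mk S f h2 h1 h3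
  have hs' : SmoothOfRelativeDimension 2 X.str := hs
  obtain ⟨hd, κ, hκ, h0⟩ := P297L.can_gen X 2
  have h4 : ¬ P299.S.HasSec κ := fun h => by
    have h5 : Nontrivial Γ(canonical f 2, ⊤) := h0.1 h
    exact not_subsingleton _ (subsingleton_of_pg hg)
  have h6 : ∃ A : P299.S.Div X, P299.S.IsAmple A := by
    obtain ⟨N, i, hi, -⟩ := hS
    have h8 : IsAffineHom i := inferInstance
    exact @P297G93.amp_of_affine X (Fin (N + 1)) _ i h8
  obtain ⟨⟨ι, _, A, a, ha⟩, h7⟩ := hB ⟨X, h6⟩ κ hd hκ h4 x₀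
  exact ⟨⟨ι, _, A, a, (isAlb_iff hM X x₀ A a).2 ha⟩, fun ι _ A a ha =>
    albIso_of hR X A a (h7 ι A a ((isAlb_iff hM X x₀ A a).1 ha))⟩

end Vale.Agent.P297M
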